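import Vale.Agent.P223.R2.H84.Fin4
import Vale.Agent.P223.R2.H84.All4

/-!
# P223: the inequality for all Hermitian metrics on closed complex manifolds with a holomorphic map,
# with amenable kernel on fundamental groups, to a closed Kähler manifold with nef canonical bundle
-/

namespace Vale.Agent.Results.P223.Modifications

open scoped ContDiff Manifold
open MeasureTheory Vale.Agent Vale.Agent.P223 Vale.Agent.P223.R2.H84

/-- Let `X` be a compact connected complex manifold of dimension `m ≥ 2` with a Kähler metric `w`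
and nef canonical bundle, `n = 2m`, `κ = n - 2 + √n`. For every smooth Hermitian metric `φ` on `K_X`
let `V = 2^m ∫ det (i∂∂̄φ)`, a positive constant times `c₁(K_X)^m`; then `V ≥ 0`.
Let `Y` be a closed connected complex manifold of dimension `m` (nothing is assumed on `K_Y`) and
`f : Y → X` any holomorphic map such that the kernel of `f_* : π₁(Y, y0) → π₁(X, f y0)` is amenable.
(For instance a bimeromorphic holomorphic map, such as a blow-up, or a finite covering; but `f` may
also be degenerate.) Then for every Hermitian metric `g` on `Y`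
`‖Y‖ ≤ κ^n ∫ (Scal_g^- / n)^(n/2)`,
and `‖Y‖ ≤ κ^n d V` if every regular value of `f` has exactly `d` preimages. -/
theorem result : ∀ (m : ℕ), 2 ≤ m → ∀ (X : Type) [TopologicalSpace X] [T2Space X] [CompactSpace X]
    [ConnectedSpace X] [ChartedSpace (P272.K.Cm m) X] [IsManifold 𝓘(ℂ, P272.K.Cm m) ω X]
    (w : P272.K.Chart m X → P272.K.Cm m → Matrix (Fin m) (Fin m) ℂ), P272.K.IsKahler w →
    P272.K.NefCanonical w 0 →
    ∀ φ : P272.K.Chart m X → P272.K.Cm m → ℝ, P272.K.IsCanonicalMetric φ → ∃ I : ℝ, 0 ≤ I ∧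
    P272.K.IsIntegral (fun e z => (P272.K.cHess (φ e) z).det.re) I ∧
    ∀ (Y : Type) [TopologicalSpace Y] [T2Space Y] [CompactSpace Y] [ConnectedSpace Y]
    [MeasurableSpace Y] [BorelSpace Y] (c' : Y → K.Ch (m + m) Y), K.Atl (H959.stdJ m) c' →
    ∀ f : C(Y, X), Hol (H959.stdJ m) c' (H959.realAtlas m X) f →
    ∀ y0 : Y, Nonempty (GMean (FundamentalGroup.map f y0).ker) →
    ∀ (g : Y → (Fin (m + m) → ℝ) → Matrix (Fin (m + m)) (Fin (m + m)) ℝ),
    K.Herm (H959.stdJ m) c' g → ∀ μ : Measure Y, K.Vol c' g μ →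
    K.sv c' ≤ ENNReal.ofReal (J.kap (m + m) ^ (m + m)) * K.I c' g μ ∧
    ∀ d : ℕ, DegEq c' (H959.realAtlas m X) f d →
    K.sv c' ≤ ENNReal.ofReal (J.kap (m + m) ^ (m + m)) * (d * ENNReal.ofReal (2 ^ m * I)) :=
  fun _ hm _ _ _ _ _ _ _ _ hw hnef _ hφ => Fin4.main blk4 hm hw hnef hφ

end Vale.Agent.Results.P223.Modifications
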